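import Vale.Agent.P280A30.Rows
import Vale.Agent.P299G40.GPsi

/-!
# P280A30: the row ISO
-/

set_option linter.all false

open scoped Manifold ContDiff Topology
open MvPolynomial Matrix Filter
open Vale.Agent.P272.K Vale.Agent.P300.Final Vale.Agent.P299G40 Vale.Agent.P299.H223
open Vale.Agent.P280Z.Gp
open Vale.Agent.P009.AV (aff)

noncomputable section

namespace Vale.Agent.P280A

variable {n M : ℕ} {X : Type} [TopologicalSpace X] [ChartedSpace (Cm n) X]

theorem lift_emb21 {φ : X → PN M} (h : IsProjEmb n φ) (a : Fin (M + 1)) :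
    IsLift n φ {x | (φ x).rep a ≠ 0} fun x => aff a (φ x) := by
  have key : ∀ x, (φ x).rep a ≠ 0 → ∀ e : Chart n X, At e x → ∃ f : Cm n → Cm (M + 1),
      AnalyticAt ℂ f (e x) ∧ f (e x) a ≠ 0 ∧
      (∀ᶠ z in 𝓝 (e x), (φ (e.symm z)).rep a ≠ 0 ∧ f z a ≠ 0 ∧
        aff a (φ (e.symm z)) = fun j => f z j / f z a) ∧
      ∀ (ξ : Cm n) (c : ℂ), fderiv ℂ f (e x) ξ = c • f (e x) → ξ = 0 := by
    intro x hx e he
    obtain ⟨f, hf, ev, im⟩ := h.loc e x he
    have h0 : f (e x) a ≠ 0 := by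
      obtain ⟨h1, h2⟩ := ev.self_of_nhds
      rw [he.left_inv] at h2
      rw [h2] at hx
      exact (aff_mk h1 a).1.1 hx
    refine ⟨f, hf, h0, ?_, im⟩
    filter_upwards [ev, ((analyticAt_pi_iff.1 hf a).continuousAt.eventually_ne h0)] with z hz z0
    obtain ⟨h1, h2⟩ := hz
    rw [h2]
    exact ⟨(aff_mk h1 a).1.2 z0, z0, (aff_mk h1 a).2⟩
  have ho : ∀ x, (φ x).rep a ≠ 0 → ∀ e : Chart n X, At e x →
      ContDiffAt ℂ ω (fun z => aff a (φ (e.symm z))) (e x) := fun x hx e he => by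
    obtain ⟨f, hf, h0, ev, -⟩ := key x hx e he
    have d := contDiffAt_pi.1 (hf.contDiffAt (n := ω))
    refine (contDiffAt_pi.2 fun j => (d j).div (d a) h0).congr_of_eventuallyEq ?_
    filter_upwards [ev] with z hz using hz.2.2
  refine ⟨isOpen_iff_mem_nhds.2 fun x hx => ?_, ho, fun x hx => aff_ne hx, fun x hx => mk_aff hx,
    fun x hx e he v c hv => ?_⟩
  · have he := at_chart (n := n) x
    obtain ⟨f, -, -, ev, -⟩ := key x hx _ he
    filter_upwards [((chartAt (Cm n) x).continuousAt he.2).eventually ev,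
      (chartAt (Cm n) x).open_source.mem_nhds he.2] with y y1 y3
    rw [(chartAt (Cm n) x).left_inv y3] at y1
    exact y1.1
  · obtain ⟨f, hf, s0, ev, im⟩ := key x hx e he
    have d := (analyticAt_pi_iff.1 hf a).differentiableAt
    have q : f =ᶠ[𝓝 (e x)] fun z => f z a • aff a (φ (e.symm z)) := by
      filter_upwards [ev] with z hz
      rw [hz.2.2]
      exact funext fun j => (mul_div_cancel₀ _ hz.2.1).symm
    have q0 := q.eq_of_nhds
    simp only [he.left_inv] at q0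
    refine im v (c + fderiv ℂ (fun z => f z a) (e x) v / f (e x) a) ?_
    rw [q.fderiv_eq, fderiv_fun_smul d ((ho x hx e he).differentiableAt (by simp))]
    simp only [ContinuousLinearMap.add_apply, ContinuousLinearMap.smul_apply, hv, he.left_inv,
      ContinuousLinearMap.smulRight_apply]
    generalize f (e x) a = b at s0 q0 ⊢
    rw [q0, smul_smul, smul_smul, add_mul, div_mul_cancel₀ _ s0, add_smul, mul_comm]

theorem imm_emb21 {φ : X → PN M} (h : IsProjEmb n φ) : IsProjectiveImmersion (Cm n) φ :=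
  imm_of_lift fun x => ⟨_, _, idx_ne (φ x), lift_emb21 h (idx (φ x))⟩

theorem holP_imm21 [IsManifold 𝓘(ℂ, Cm n) ω X] {φ : X → PN M}
    (h : IsProjectiveImmersion (Cm n) φ) : HolP n φ := fun x => by
  have L := lift_aff h (idx (φ x))
  refine ⟨fun y => aff (idx (φ x)) (φ y), fun e he => (L.holo x (idx_ne _) e he).analyticAt, ?_⟩
  filter_upwards [L.isOpen.mem_nhds (idx_ne (φ x))] with y hy using ⟨L.ne y hy, L.eq y hy⟩

theorem iso21 (map : MAP) : ISO := by
  intro n N Z X _ _ _ _ _ _ Φ ⟨inj, imm, hZ⟩ ⟨K, G, P, φ, v, hG, hP, hφ, hv, hst, horb⟩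
  obtain ⟨M, rfl⟩ : ∃ M, K = M + 1 := by
    cases K with
    | zero => exact absurd (Subsingleton.elim _ _) hv
    | succ M => exact ⟨M, rfl⟩
  have iφ := imm_emb21 hφ
  obtain ⟨f, hf, ef⟩ := map n N M X Φ φ inj imm (holP_imm21 iφ)
  obtain ⟨g, hg, eg⟩ := map n M N X φ Φ hφ.inj iφ (holP_imm21 imm)
  obtain ⟨u, hu⟩ := Projectivization.exists_smul_eq_mk_rep ℂ v hv
  have hW : {y : PN M | ∃ g ∈ G, ∃ c : ℂ,
      y.rep = c • (g.1 *ᵥ (Projectivization.mk ℂ v hv).rep)} = Set.range φ := by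
    ext y
    rw [← y.mk_rep, horb, y.mk_rep, Set.mem_setOf_eq, ← hu]
    refine exists_congr fun g => and_congr_right fun _ => ⟨fun ⟨c, hc⟩ => ⟨c * u, ?_⟩,
      fun ⟨c, hc⟩ => ⟨c * (u : ℂ)⁻¹, ?_⟩⟩
    · rw [hc, Units.smul_def, mulVec_smul, smul_smul]
    · rw [hc, Units.smul_def, mulVec_smul, smul_smul, mul_assoc, inv_mul_cancel₀ u.ne_zero,
        mul_one]
  refine ⟨M, G, P, Projectivization.mk ℂ v hv, f, hG, hP, fun g => ?_, ?_⟩
  · rw [hst, ← hu]
    refine and_congr_right fun _ => exists_congr fun c => ?_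
    rw [Units.smul_def, mulVec_smul, smul_comm c]
    exact (smul_right_injective _ u.ne_zero).eq_iff.symm
  · rw [hW, ← hZ]
    refine ⟨hf, ?_, g, hg, ?_, ?_, ?_⟩
    · rintro _ ⟨x, rfl⟩
      exact ⟨x, (ef x).symm⟩
    · rintro _ ⟨x, rfl⟩
      exact ⟨x, (eg x).symm⟩
    · rintro _ ⟨x, rfl⟩
      rw [ef, eg]
    · rintro _ ⟨x, rfl⟩
      rw [eg, ef]

end Vale.Agent.P280A

end
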